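import Mathlib

/-!
# P112, chapter (G): independent boundaries

Abstract flow lemma: a tree of nodes, each node `J` flips an independent coin of probability
`ω J z ∈ [0,1]`; boundaries are the successful nodes.  The conservation law says that the total
weight arriving at `J'` from all its ancestors is at most `ω J' z`.
-/

open MeasureTheory
open scoped ENNReal BigOperators

namespace Vale.Agent.P112.H48

/-- telescoping: first success before time `n` has probability at most one. -/
theorem sum_first_success (x : ℕ → ℝ) (n : ℕ) :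
    ∑ k ∈ Finset.range n, x k * ∏ i ∈ Finset.range k, (1 - x i) =
      1 - ∏ i ∈ Finset.range n, (1 - x i) := by
  induction n with
  | zero => simp
  | succ n ih =>
    rw [Finset.sum_range_succ, ih, Finset.prod_range_succ]
    ring

theorem sum_first_success_le (x : ℕ → ℝ) (h1 : ∀ k, x k ≤ 1) (n : ℕ) :
    ∑ k ∈ Finset.range n, x k * ∏ i ∈ Finset.range k, (1 - x i) ≤ 1 := by
  rw [sum_first_success]
  have : 0 ≤ ∏ i ∈ Finset.range n, (1 - x i) :=
    Finset.prod_nonneg fun i _ => by linarith [h1 i]
  linarith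

theorem first_success_enn (x : ℕ → ℝ≥0∞) (h1 : ∀ k, x k ≤ 1) (n : ℕ) :
    ∑ k ∈ Finset.range n, x k * ∏ i ∈ Finset.range k, (1 - x i) +
      ∏ i ∈ Finset.range n, (1 - x i) = 1 := by
  induction n with
  | zero => simp
  | succ n ih =>
    rw [Finset.sum_range_succ, Finset.prod_range_succ]
    have h : x n * ∏ i ∈ Finset.range n, (1 - x i) + (∏ i ∈ Finset.range n, (1 - x i)) * (1 - x n)
        = ∏ i ∈ Finset.range n, (1 - x i) := by
      rw [mul_comm (x n), ← mul_add, add_tsub_cancel_of_le (h1 n), mul_one]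
    rw [add_assoc, h, ih]

theorem first_success_enn_le (x : ℕ → ℝ≥0∞) (h1 : ∀ k, x k ≤ 1) (n : ℕ) :
    ∑ k ∈ Finset.range n, x k * ∏ i ∈ Finset.range k, (1 - x i) ≤ 1 :=
  le_self_add.trans (first_success_enn x h1 n).le

/-- Abstract flow lemma, real form.  `inner` are the non-leaf nodes different from the root. -/
theorem flow_real {D : Type*} [DecidableEq D] (root : D) (inner leaves : Finset D)
    (hri : root ∉ inner) (hdis : Disjoint inner leaves)
    (a err : D → ℝ) (f : D → D → ℝ)
    (hnode : ∀ J ∈ insert root inner, a J ≤ ∑ K ∈ inner ∪ leaves, f J K + err J)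
    (hcons : ∀ K ∈ inner ∪ leaves, ∑ J ∈ insert root inner, f J K ≤ a K) :
    a root ≤ ∑ K ∈ leaves, a K + ∑ J ∈ insert root inner, err J := by
  have h1 : ∑ J ∈ insert root inner, a J ≤
      ∑ J ∈ insert root inner, (∑ K ∈ inner ∪ leaves, f J K + err J) :=
    Finset.sum_le_sum hnode
  rw [Finset.sum_add_distrib, Finset.sum_comm] at h1
  have h2 : ∑ K ∈ inner ∪ leaves, ∑ J ∈ insert root inner, f J K ≤
      ∑ K ∈ inner ∪ leaves, a K := Finset.sum_le_sum hcons
  have h3 := h1.trans (add_le_add h2 le_rfl)
  rw [Finset.sum_union hdis, Finset.sum_insert hri] at h3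
  linarith

/-- Abstract flow lemma, `ℝ≥0∞` form. -/
theorem flow_enn {D : Type*} [DecidableEq D] (root : D) (inner leaves : Finset D)
    (hri : root ∉ inner) (hdis : Disjoint inner leaves)
    (a err : D → ℝ≥0∞) (f : D → D → ℝ≥0∞) (hfin : ∀ J ∈ inner, a J ≠ ∞)
    (hnode : ∀ J ∈ insert root inner, a J ≤ ∑ K ∈ inner ∪ leaves, f J K + err J)
    (hcons : ∀ K ∈ inner ∪ leaves, ∑ J ∈ insert root inner, f J K ≤ a K) :
    a root ≤ ∑ K ∈ leaves, a K + ∑ J ∈ insert root inner, err J := by
  have h1 : ∑ J ∈ insert root inner, a J ≤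
      ∑ J ∈ insert root inner, (∑ K ∈ inner ∪ leaves, f J K + err J) :=
    Finset.sum_le_sum hnode
  rw [Finset.sum_add_distrib, Finset.sum_comm] at h1
  have h2 : ∑ K ∈ inner ∪ leaves, ∑ J ∈ insert root inner, f J K ≤
      ∑ K ∈ inner ∪ leaves, a K := Finset.sum_le_sum hcons
  have h3 := h1.trans (add_le_add h2 le_rfl)
  rw [Finset.sum_union hdis, Finset.sum_insert hri] at h3
  have hf : ∑ J ∈ inner, a J ≠ ∞ := by
    rw [ENNReal.sum_ne_top]; exact hfin
  have h4 : a root + ∑ J ∈ inner, a J ≤
      (∑ K ∈ leaves, a K + ∑ J ∈ insert root inner, err J) + ∑ J ∈ inner, a J := by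
    refine h3.trans (le_of_eq ?_)
    ring
  exact (ENNReal.add_le_add_iff_right hf).1 h4

/-! ## The tree version -/

section Tree

variable {D X : Type*} [DecidableEq D] [MeasurableSpace X] (up : D → D) (lv : D → ℕ)
  (ω : D → X → ℝ≥0∞)

/-- weight with which `J = up^[k+1] K` sees its descendant `K` as a member of the random
partition: `ω_K` times no success strictly between. -/
noncomputable def passW (K : D) (k : ℕ) (z : X) : ℝ≥0∞ :=
  (∏ i ∈ Finset.range k, (1 - ω (up^[i + 1] K) z)) * ω K z

omit [DecidableEq D] [MeasurableSpace X] in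
/-- total weight arriving at `K` from its ancestors is at most `ω K`. -/
theorem sum_passW_le (h1 : ∀ J z, ω J z ≤ 1) (K : D) (n : ℕ) (z : X) :
    ∑ k ∈ Finset.range n, ω (up^[k + 1] K) z * passW up ω K k z ≤ ω K z := by
  have h := first_success_enn_le (fun k => ω (up^[k + 1] K) z) (fun k => h1 _ _) n
  calc ∑ k ∈ Finset.range n, ω (up^[k + 1] K) z * passW up ω K k z
      = (∑ k ∈ Finset.range n, ω (up^[k + 1] K) z *
          ∏ i ∈ Finset.range k, (1 - ω (up^[i + 1] K) z)) * ω K z := by
        rw [Finset.sum_mul]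
        refine Finset.sum_congr rfl fun k _ => ?_
        unfold passW; ring
    _ ≤ 1 * ω K z := by gcongr
    _ = ω K z := one_mul _

/-- **Flow lemma** (independent boundaries).  `nodes` a finite set of nodes closed under `up`
(of positive level), `lv root = 0`, leaves = the nodes of level `n1`. -/
theorem flow_tree (μ : Measure X) (nodes : Finset D) (root : D) (n1 : ℕ) (hn1 : 0 < n1)
    (hroot : root ∈ nodes) (hlv0 : ∀ J ∈ nodes, lv J = 0 → J = root) (hr0 : lv root = 0)
    (hle : ∀ J ∈ nodes, lv J ≤ n1)
    (hup : ∀ J ∈ nodes, 0 < lv J → up J ∈ nodes ∧ lv (up J) + 1 = lv J)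
    (hω1 : ∀ J z, ω J z ≤ 1) (hωm : ∀ J, Measurable (ω J))
    (g : D → X → ℝ≥0∞) (hg : ∀ J, Measurable (g J)) (err : D → ℝ≥0∞)
    (hfin : ∀ J ∈ nodes, 0 < lv J → lv J < n1 → ∫⁻ z, ω J z * g J z ∂μ ≠ ∞)
    (hnode : ∀ J ∈ nodes, lv J < n1 →
      ∫⁻ z, ω J z * g J z ∂μ ≤
        ∑ K ∈ nodes with lv J < lv K ∧ up^[lv K - lv J] K = J,
          ∫⁻ z, ω J z * (passW up ω K (lv K - lv J - 1) z * g K z) ∂μ + err J) :
    ∫⁻ z, ω root z * g root z ∂μ ≤
      ∑ K ∈ nodes with lv K = n1, ∫⁻ z, ω K z * g K z ∂μ +
        ∑ J ∈ nodes with lv J < n1, err J := by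
  classical
  set inner := nodes.filter fun J => 0 < lv J ∧ lv J < n1 with hinner
  set leaves := nodes.filter fun J => lv J = n1 with hleaves
  set a : D → ℝ≥0∞ := fun J => ∫⁻ z, ω J z * g J z ∂μ with ha
  set f : D → D → ℝ≥0∞ := fun J K =>
    if lv J < lv K ∧ up^[lv K - lv J] K = J then
      ∫⁻ z, ω J z * (passW up ω K (lv K - lv J - 1) z * g K z) ∂μ else 0 with hf
  have hri : root ∉ inner := by simp [hinner, hr0]
  have hdis : Disjoint inner leaves := by
    rw [Finset.disjoint_left]; intro J h1 h2
    simp only [hinner, hleaves, Finset.mem_filter] at h1 h2; omega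
  have hins : insert root inner = nodes.filter fun J => lv J < n1 := by
    ext J
    simp only [hinner, Finset.mem_insert, Finset.mem_filter]
    constructor
    · rintro (rfl | ⟨h1, h2, h3⟩)
      · exact ⟨hroot, by omega⟩
      · exact ⟨h1, h3⟩
    · rintro ⟨h1, h2⟩
      rcases Nat.eq_zero_or_pos (lv J) with h | h
      · exact Or.inl (hlv0 J h1 h)
      · exact Or.inr ⟨h1, h, h2⟩
  have huni : inner ∪ leaves = nodes.filter fun J => 0 < lv J := by
    ext J
    simp only [hinner, hleaves, Finset.mem_union, Finset.mem_filter]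
    constructor
    · rintro (⟨h1, h2, h3⟩ | ⟨h1, h2⟩)
      · exact ⟨h1, h2⟩
      · exact ⟨h1, by omega⟩
    · rintro ⟨h1, h2⟩
      have := hle J h1
      rcases Nat.lt_or_ge (lv J) n1 with h | h
      · exact Or.inl ⟨h1, h2, h⟩
      · exact Or.inr ⟨h1, by omega⟩
  -- iterates of `up`
  have hit : ∀ k, ∀ K ∈ nodes, k ≤ lv K → up^[k] K ∈ nodes ∧ lv (up^[k] K) + k = lv K := by
    intro k
    induction k with
    | zero => intro K hK _; simpa using hK
    | succ k ih =>
      intro K hK hk
      obtain ⟨h1, h2⟩ := ih K hK (by omega)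
      obtain ⟨h3, h4⟩ := hup _ h1 (by omega)
      rw [Function.iterate_succ_apply']
      exact ⟨h3, by omega⟩
  have key := flow_enn root inner leaves hri hdis a err f ?_ ?_ ?_
  · rw [hins] at key
    exact key
  · intro J hJ
    simp only [hinner, Finset.mem_filter] at hJ
    exact hfin J hJ.1 hJ.2.1 hJ.2.2
  · intro J hJ
    rw [hins] at hJ
    rw [Finset.mem_filter] at hJ
    refine (hnode J hJ.1 hJ.2).trans ?_
    gcongr
    rw [huni]
    rw [Finset.sum_filter]
    rw [Finset.sum_filter]
    refine Finset.sum_le_sum fun K hK => ?_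
    by_cases h : lv J < lv K ∧ up^[lv K - lv J] K = J
    · rw [if_pos h, if_pos (by omega)]
      simp only [hf, if_pos h]; exact le_rfl
    · rw [if_neg h]; exact zero_le
  · intro K hK
    rw [huni] at hK
    obtain ⟨hK1, hK2⟩ := Finset.mem_filter.1 hK
    rw [hins]
    -- reindex by `k`
    have hsub : ∑ J ∈ nodes.filter (fun J => lv J < n1), f J K ≤
        ∑ k ∈ Finset.range (lv K), f (up^[k + 1] K) K := by
      have himg : ∀ J ∈ nodes.filter (fun J => lv J < n1), f J K ≠ 0 →
          J ∈ (Finset.range (lv K)).image fun k => up^[k + 1] K := by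
        intro J _ hne
        have hc : lv J < lv K ∧ up^[lv K - lv J] K = J := by
          by_contra hc
          exact hne (by simp only [hf, if_neg hc])
        rw [Finset.mem_image]
        refine ⟨lv K - lv J - 1, Finset.mem_range.2 (by omega), ?_⟩
        have : lv K - lv J - 1 + 1 = lv K - lv J := by omega
        rw [this]; exact hc.2
      have hinj : Set.InjOn (fun k => up^[k + 1] K) (Finset.range (lv K) : Set ℕ) := by
        intro k hk l hl hkl
        have hk' := Finset.mem_range.1 (Finset.mem_coe.1 hk)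
        have hl' := Finset.mem_range.1 (Finset.mem_coe.1 hl)
        have h1 := (hit (k + 1) K hK1 (by omega)).2
        have h2 := (hit (l + 1) K hK1 (by omega)).2
        have h3 : lv (up^[k + 1] K) = lv (up^[l + 1] K) := by
          have := congrArg lv hkl
          simpa using this
        omega
      calc ∑ J ∈ nodes.filter (fun J => lv J < n1), f J K
          ≤ ∑ J ∈ (Finset.range (lv K)).image (fun k => up^[k + 1] K), f J K := by
            rw [← Finset.sum_filter_ne_zero]
            refine Finset.sum_le_sum_of_subset fun J hJ => ?_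
            rw [Finset.mem_filter] at hJ
            exact himg J hJ.1 hJ.2
        _ = ∑ k ∈ Finset.range (lv K), f (up^[k + 1] K) K := Finset.sum_image hinj
    refine hsub.trans ?_
    have hterm : ∀ k ∈ Finset.range (lv K), f (up^[k + 1] K) K ≤
        ∫⁻ z, ω (up^[k + 1] K) z * (passW up ω K k z * g K z) ∂μ := by
      intro k hk
      have hk' := Finset.mem_range.1 hk
      have h1 := (hit (k + 1) K hK1 (by omega)).2
      simp only [hf]
      split_ifs with hc
      · have : lv K - lv (up^[k + 1] K) - 1 = k := by omega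
        rw [this]
      · exact zero_le
    refine (Finset.sum_le_sum hterm).trans ?_
    have hpm : ∀ k, Measurable (passW up ω K k) := fun k => by
      unfold passW
      refine Measurable.mul ?_ (hωm K)
      refine Finset.measurable_prod _ fun i _ => ?_
      exact measurable_const.sub (hωm _)
    rw [← lintegral_finsetSum' ]
    · simp only [ha]
      refine lintegral_mono fun z => ?_
      have := sum_passW_le up ω hω1 K (lv K) z
      calc ∑ k ∈ Finset.range (lv K), ω (up^[k + 1] K) z * (passW up ω K k z * g K z)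
          = (∑ k ∈ Finset.range (lv K), ω (up^[k + 1] K) z * passW up ω K k z) * g K z := by
            rw [Finset.sum_mul]
            exact Finset.sum_congr rfl fun k _ => by ring
        _ ≤ ω K z * g K z := by gcongr
    · intro k _
      exact ((hωm _).mul ((hpm k).mul (hg K))).aemeasurable

end Tree

end Vale.Agent.P112.H48
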